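import Mathlib

/-!
The algebra `k[p][q] / (g, p ^ N)` with `g` monic in `q`: its dimension and a Frobenius form.
-/

namespace Vale.Agent.P287.H908

open Polynomial Module

section

variable {k : Type} [Field k]

/-- The coefficients `p ^ i q ^ j`, `i < N`, `j < n`, of the remainder modulo `g`. -/
noncomputable def coefMap (g : k[X][X]) (n N : ℕ) : k[X][X] →ₗ[k] (Fin n → Fin N → k) where
  toFun h := fun j i => ((h %ₘ g).coeff j).coeff i
  map_add' a b := by
    funext j i
    simp only [Pi.add_apply, add_modByMonic, coeff_add]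
  map_smul' c a := by
    funext j i
    have h1 : c • a = (C c : k[X]) • a := by
      ext j i
      simp
    rw [h1, smul_modByMonic]
    simp

lemma coefMap_apply (g : k[X][X]) (n N : ℕ) (h : k[X][X]) (j : Fin n) (i : Fin N) :
    coefMap g n N h j i = ((h %ₘ g).coeff j).coeff i := rfl

lemma CX_pow (N : ℕ) : (C X : k[X][X]) ^ N = C (X ^ N) := by rw [C_pow]

lemma coeff_modByMonic_eq_zero {g : k[X][X]} (hg : g.Monic) {n : ℕ} (hn : g.natDegree = n)
    (h : k[X][X]) {j : ℕ} (hj : n ≤ j) : (h %ₘ g).coeff j = 0 := by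
  refine coeff_eq_zero_of_degree_lt (lt_of_lt_of_le (degree_modByMonic_lt _ hg) ?_)
  rw [degree_eq_natDegree hg.ne_zero, hn]
  exact_mod_cast hj

lemma coefMap_eq_zero {g : k[X][X]} (hg : g.Monic) {n N : ℕ} (hn : g.natDegree = n)
    (h : k[X][X]) : coefMap g n N h = 0 ↔ h ∈ Ideal.span {g, (C X : k[X][X]) ^ N} := by
  constructor
  · intro h0
    have h1 : (C X : k[X][X]) ^ N ∣ h %ₘ g := by
      rw [CX_pow, C_dvd_iff_dvd_coeff]
      intro j
      by_cases hj : j < n
      · rw [X_pow_dvd_iff]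
        intro d hd
        exact congrFun (congrFun h0 ⟨j, hj⟩) ⟨d, hd⟩
      · rw [coeff_modByMonic_eq_zero hg hn h (not_lt.1 hj)]
        exact dvd_zero _
    obtain ⟨t, ht⟩ := h1
    refine Ideal.mem_span_pair.2 ⟨h /ₘ g, t, ?_⟩
    have h2 := modByMonic_add_div h g
    rw [ht] at h2
    linear_combination h2
  · intro h0
    obtain ⟨a, b, hab⟩ := Ideal.mem_span_pair.1 h0
    have h1 : h %ₘ g = (X ^ N : k[X]) • (b %ₘ g) := by
      rw [← hab, add_modByMonic, (modByMonic_eq_zero_iff_dvd hg).mpr (dvd_mul_left g a),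
        zero_add, ← smul_modByMonic, CX_pow, mul_comm, smul_eq_C_mul]
    funext j i
    rw [coefMap_apply, h1, coeff_smul, smul_eq_mul, coeff_X_pow_mul']
    rw [if_neg (by omega)]
    rfl

lemma coefMap_surjective {g : k[X][X]} (hg : g.Monic) {n : ℕ} (N : ℕ) (hn : g.natDegree = n) :
    Function.Surjective (coefMap g n N) := by
  intro c
  set h : k[X][X] := ∑ j : Fin n, monomial (j : ℕ) (∑ i : Fin N, monomial (i : ℕ) (c j i)) with hh
  have hdeg : h.degree < g.degree := by
    rw [degree_eq_natDegree hg.ne_zero, hn, degree_lt_iff_coeff_zero]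
    intro l hl
    rw [hh, finsetSum_coeff]
    refine Finset.sum_eq_zero fun j _ => ?_
    rw [coeff_monomial, if_neg (by omega)]
  refine ⟨h, ?_⟩
  funext j i
  rw [coefMap_apply, (modByMonic_eq_self_iff hg).2 hdeg, hh, finsetSum_coeff,
    Finset.sum_eq_single j]
  · rw [coeff_monomial, if_pos rfl, finsetSum_coeff, Finset.sum_eq_single i]
    · rw [coeff_monomial, if_pos rfl]
    · intro b _ hb
      rw [coeff_monomial, if_neg (fun h => hb (Fin.ext h))]
    · intro h
      exact absurd (Finset.mem_univ _) h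
  · intro b _ hb
    rw [coeff_monomial, if_neg (fun h => hb (Fin.ext h))]
  · intro h
    exact absurd (Finset.mem_univ _) h

/-- The coordinates of `k[p][q] / (g, p ^ N)`. -/
noncomputable def coefEquiv {g : k[X][X]} (hg : g.Monic) {n : ℕ} (N : ℕ)
    (hn : g.natDegree = n) :
    (k[X][X] ⧸ Ideal.span {g, (C X : k[X][X]) ^ N}) ≃ₗ[k] (Fin n → Fin N → k) :=
  let mk : k[X][X] →ₗ[k] (k[X][X] ⧸ Ideal.span {g, (C X : k[X][X]) ^ N}) :=
    (Ideal.Quotient.mkₐ k _).toLinearMap
  have hmk : Function.Surjective mk := Ideal.Quotient.mkₐ_surjective k _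
  have hker : LinearMap.ker mk = LinearMap.ker (coefMap g n N) := by
    ext h
    rw [LinearMap.mem_ker, LinearMap.mem_ker, coefMap_eq_zero hg hn]
    exact Ideal.Quotient.eq_zero_iff_mem
  (mk.quotKerEquivOfSurjective hmk).symm ≪≫ₗ Submodule.quotEquivOfEq _ _ hker ≪≫ₗ
    (coefMap g n N).quotKerEquivOfSurjective (coefMap_surjective hg N hn)

lemma coefEquiv_mk {g : k[X][X]} (hg : g.Monic) {n : ℕ} (N : ℕ) (hn : g.natDegree = n)
    (h : k[X][X]) : coefEquiv hg N hn (Ideal.Quotient.mk _ h) = coefMap g n N h := by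
  let mk : k[X][X] →ₗ[k] (k[X][X] ⧸ Ideal.span {g, (C X : k[X][X]) ^ N}) :=
    (Ideal.Quotient.mkₐ k _).toLinearMap
  have hmk : Function.Surjective mk := Ideal.Quotient.mkₐ_surjective k _
  have h1 : (mk.quotKerEquivOfSurjective hmk).symm (mk h) = Submodule.Quotient.mk h := by
    rw [LinearEquiv.symm_apply_eq]
    rfl
  have h2 : (Ideal.Quotient.mk (Ideal.span {g, (C X : k[X][X]) ^ N}) h) = mk h := rfl
  rw [h2, coefEquiv]
  simp only [LinearEquiv.trans_apply]
  rw [h1]
  rfl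

/-- (F1) -/
lemma finrank_Q (g : k[X][X]) (hg : g.Monic) (n N : ℕ) (hn : g.natDegree = n) :
    Module.Finite k (k[X][X] ⧸ Ideal.span {g, (C X : k[X][X]) ^ N}) ∧
      Module.finrank k (k[X][X] ⧸ Ideal.span {g, (C X : k[X][X]) ^ N}) = n * N := by
  refine ⟨Module.Finite.equiv (coefEquiv hg N hn).symm, ?_⟩
  rw [(coefEquiv hg N hn).finrank_eq, Module.finrank_pi_fintype]
  simp

/-- (F2) -/
lemma exists_frob (g : k[X][X]) (hg : g.Monic) (n N : ℕ) (hn : g.natDegree = n) (h1 : 1 ≤ n)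
    (hN : 1 ≤ N) : ∃ lam : (k[X][X] ⧸ Ideal.span {g, (C X : k[X][X]) ^ N}) →ₗ[k] k,
      (∀ h, lam (Ideal.Quotient.mk _ h) = ((h %ₘ g).coeff (n - 1)).coeff (N - 1)) ∧
        ∀ u, (∀ r, lam (r * u) = 0) → u = 0 := by
  set lam : (k[X][X] ⧸ Ideal.span {g, (C X : k[X][X]) ^ N}) →ₗ[k] k :=
    (LinearMap.proj (⟨N - 1, by omega⟩ : Fin N)) ∘ₗ
      (LinearMap.proj (⟨n - 1, by omega⟩ : Fin n) : (Fin n → Fin N → k) →ₗ[k] (Fin N → k)) ∘ₗ
        (coefEquiv hg N hn).toLinearMap with hlam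
  have hlm : ∀ h, lam (Ideal.Quotient.mk _ h) = ((h %ₘ g).coeff (n - 1)).coeff (N - 1) := by
    intro h
    change coefEquiv hg N hn (Ideal.Quotient.mk _ h) _ _ = _
    rw [coefEquiv_mk]
    rfl
  refine ⟨lam, hlm, fun u hu => ?_⟩
  obtain ⟨h, rfl⟩ := Ideal.Quotient.mk_surjective u
  by_contra hne
  rw [Ideal.Quotient.eq_zero_iff_mem, ← coefMap_eq_zero hg hn] at hne
  set t := h %ₘ g with ht
  have hmt : Ideal.Quotient.mk (Ideal.span {g, (C X : k[X][X]) ^ N}) h =
      Ideal.Quotient.mk _ t := by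
    rw [Ideal.Quotient.eq]
    refine Ideal.mem_span_pair.2 ⟨h /ₘ g, 0, ?_⟩
    have h2 := modByMonic_add_div h g
    rw [ht]
    linear_combination h2
  have htn : ∀ j, n ≤ j → t.coeff j = 0 := fun j hj => coeff_modByMonic_eq_zero hg hn h hj
  -- the smallest power of `p`
  have hex : ∃ i, ∃ j, j ≤ n - 1 ∧ (t.coeff j).coeff i ≠ 0 := by
    obtain ⟨j, hj⟩ := Function.ne_iff.1 hne
    obtain ⟨i, hi⟩ := Function.ne_iff.1 hj
    exact ⟨i, j, by omega, hi⟩
  classical
  set i := Nat.find hex with hi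
  obtain ⟨j1, hj1, hj1'⟩ := Nat.find_spec hex
  rw [← hi] at hj1'
  have himin : ∀ i' < i, ∀ j ≤ n - 1, (t.coeff j).coeff i' = 0 := by
    intro i' hi' j hj
    by_contra h0
    exact Nat.find_min hex hi' ⟨j, hj, h0⟩
  have hiN : i < N := by
    obtain ⟨j, hj⟩ := Function.ne_iff.1 hne
    obtain ⟨i', hi'⟩ := Function.ne_iff.1 hj
    exact lt_of_le_of_lt (Nat.find_le ⟨j, by omega, hi'⟩) i'.2
  set j := Nat.findGreatest (fun j => (t.coeff j).coeff i ≠ 0) (n - 1) with hj
  have hjs : (t.coeff j).coeff i ≠ 0 :=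
    Nat.findGreatest_spec (P := fun j => (t.coeff j).coeff i ≠ 0) hj1 hj1'
  have hjn : j ≤ n - 1 := Nat.findGreatest_le _
  have hjmax : ∀ l, j < l → (t.coeff l).coeff i = 0 := by
    intro l hl
    by_cases hln : l ≤ n - 1
    · by_contra h0
      exact Nat.findGreatest_is_greatest hl hln h0
    · rw [htn l (by omega), coeff_zero]
  -- the low part
  set s : k[X][X] := ∑ l ∈ Finset.range (j + 1), monomial l (t.coeff l) with hs
  have hsc : ∀ l, s.coeff l = if l < j + 1 then t.coeff l else 0 := by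
    intro l
    rw [hs, finsetSum_coeff]
    simp only [coeff_monomial]
    rw [Finset.sum_ite_eq']
    simp
  have hdvd : (C X : k[X][X]) ^ (i + 1) ∣ t - s := by
    rw [CX_pow, C_dvd_iff_dvd_coeff]
    intro l
    rw [coeff_sub, hsc]
    split_ifs with hl
    · rw [sub_self]
      exact dvd_zero _
    · rw [sub_zero, X_pow_dvd_iff]
      intro d hd
      rcases Nat.lt_succ_iff_lt_or_eq.1 hd with h2 | h2
      · by_cases hln : l ≤ n - 1
        · exact himin d h2 l hln
        · rw [htn l (by omega), coeff_zero]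
      · rw [h2]
        exact hjmax l (by omega)
  set r : k[X][X] := (C X) ^ (N - 1 - i) * X ^ (n - 1 - j) with hr
  have hmem : r * t - r * s ∈ Ideal.span {g, (C X : k[X][X]) ^ N} := by
    obtain ⟨w, hw⟩ := hdvd
    refine Ideal.mem_span_pair.2 ⟨0, X ^ (n - 1 - j) * w, ?_⟩
    have e : (C X : k[X][X]) ^ N = (C X) ^ (N - 1 - i) * (C X) ^ (i + 1) := by
      rw [← pow_add]
      congr 1
      omega
    rw [e, hr]
    linear_combination (-(C X : k[X][X]) ^ (N - 1 - i) * X ^ (n - 1 - j)) * hw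
  have h2 := hu (Ideal.Quotient.mk _ r)
  rw [hmt, ← map_mul, Ideal.Quotient.eq.2 hmem, hlm] at h2
  have hsd : s.natDegree ≤ j := by
    rw [natDegree_le_iff_coeff_eq_zero]
    intro l hl
    rw [hsc, if_neg (by omega)]
  have hrs : r * s = C (X ^ (N - 1 - i)) * (X ^ (n - 1 - j) * s) := by
    rw [hr, CX_pow, mul_assoc]
  have hdeg : (r * s).degree < g.degree := by
    rw [degree_eq_natDegree hg.ne_zero, hn]
    refine lt_of_le_of_lt degree_le_natDegree ?_
    have h3 : (r * s).natDegree ≤ n - 1 := by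
      rw [hrs]
      refine (natDegree_C_mul_le _ _).trans ?_
      refine natDegree_mul_le.trans ?_
      rw [natDegree_X_pow]
      omega
    exact_mod_cast (by omega : (r * s).natDegree < n)
  rw [(modByMonic_eq_self_iff hg).2 hdeg, hrs, coeff_C_mul] at h2
  have e1 : n - 1 = j + (n - 1 - j) := by omega
  have e2 : N - 1 = i + (N - 1 - i) := by omega
  have h3 : ((X : k[X][X]) ^ (n - 1 - j) * s).coeff (n - 1) = s.coeff j := by
    have := coeff_X_pow_mul s (n - 1 - j) j
    rwa [← e1] at this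
  have h4 : ((X : k[X]) ^ (N - 1 - i) * s.coeff j).coeff (N - 1) = (s.coeff j).coeff i := by
    have := coeff_X_pow_mul (s.coeff j) (N - 1 - i) i
    rwa [← e2] at this
  rw [h3, h4, hsc, if_pos (by omega)] at h2
  exact hjs h2

end

end Vale.Agent.P287.H908
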