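import Vale.Agent.P287.Theta.Saturate
import Vale.Agent.P287.Theta.ChartGlue
import Vale.Agent.P287.H925.Hom

/-!
The theta characteristic of the quadric surface fibration has exactly one section: if `φ` is a
cubic form with `φ ^ 2 ∈ (δ, f)`, then `φ` is a constant multiple of `δ`.
-/

namespace Vale.Agent.P287.H908

open MvPolynomial Matrix Vale.Agent.P287 Vale.Agent.P287.Theta Vale.Agent.P287.H925

section

attribute [local instance] MvPolynomial.gradedAlgebra

/-- A homogeneous divisor of a polynomial divides its homogeneous components. -/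
lemma dvd_hc {σ K : Type*} [Field K] {f p : MvPolynomial σ K} {d : ℕ} (hf : f.IsHomogeneous d)
    (h : f ∣ p) (j : ℕ) : f ∣ homogeneousComponent j p := by
  classical
  obtain ⟨q, rfl⟩ := h
  by_cases hj : d ≤ j
  · obtain ⟨k, rfl⟩ := Nat.exists_eq_add_of_le hj
    rw [hc_mul hf k]
    exact Dvd.intro _ rfl
  · have h := DirectSum.coe_decompose_mul_of_left_mem_of_not_le (homogeneousSubmodule σ K)
      (i := d) (n := j) (a := f) (b := q) ((mem_homogeneousSubmodule _ _).2 hf) hj
    have h1 : ∀ (n : ℕ) (p : MvPolynomial σ K),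
        ((DirectSum.decompose (homogeneousSubmodule σ K) p) n : MvPolynomial σ K) =
          homogeneousComponent n p := fun n p => decomposition.decompose'_apply p n
    rw [h1] at h
    rw [h]
    exact dvd_zero _

end

/-- **Normality** of a smooth plane curve, homogeneous form. -/
theorem hom_sqrt_dvd {f a b : P3} {d t n : ℕ} (hf : f.IsHomogeneous d) (hd : 2 ≤ d)
    (hp : Prime f) (hs : SmoothP f) (ha : a.IsHomogeneous (t + n)) (hb : b.IsHomogeneous t)
    (hfb : ¬ f ∣ b) (h : a ^ 2 ∈ Ideal.span {b ^ 2, f}) :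
    ∃ q : P3, q.IsHomogeneous n ∧ f ∣ a - b * q := by
  have h1 : b ^ 2 ∈ Ideal.span {b ^ 2, f} := Ideal.subset_span (by simp)
  have h2 : a * b ∈ Ideal.span {b ^ 2, f} := by
    refine mul_mem_span (e := t * 2) (n := n) hf hd hp hs (hb.pow 2) ?_ ?_ h h1
    · exact fun h3 => hfb (hp.dvd_of_dvd_pow h3)
    · have h3 := ha.mul hb
      have e : t + n + t = t * 2 + n := by ring
      rwa [e] at h3
  obtain ⟨p, q, hpq⟩ := Ideal.mem_span_pair.1 h2
  have h3 : f ∣ b * (a - b * p) := ⟨q, by linear_combination -hpq⟩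
  have h4 := (hp.dvd_or_dvd h3).resolve_left hfb
  refine ⟨homogeneousComponent n p, homogeneousComponent_isHomogeneous _ _, ?_⟩
  have h5 := dvd_hc hf h4 (t + n)
  rwa [map_sub, hc_mul hb n, homogeneousComponent_eq_self ha] at h5

/-- determinants with entries of bidegree -/
lemma det_hom₂ {σ K : Type*} [Field K] {m : ℕ} (S : Matrix (Fin m) (Fin m) (MvPolynomial σ K))
    (r c : Fin m → ℕ) (h : ∀ k i, (S k i).IsHomogeneous (r k + c i)) :
    S.det.IsHomogeneous (∑ i, r i + ∑ i, c i) := by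
  rw [Matrix.det_apply]
  refine IsHomogeneous.sum _ _ _ fun τ _ => ?_
  have h1 : (∏ i, S (τ i) i).IsHomogeneous (∑ i, r i + ∑ i, c i) := by
    have h2 := IsHomogeneous.prod Finset.univ (fun i => S (τ i) i) (fun i => r (τ i) + c i)
      (fun i _ => h _ _)
    rwa [Finset.sum_add_distrib, Equiv.sum_comp τ r] at h2
  rcases Int.units_eq_one_or (Equiv.Perm.sign τ) with h2 | h2 <;> rw [h2]
  · simpa using h1
  · simpa using h1.neg

/-- entries of the adjugate of a matrix with entries of bidegree -/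
lemma adj_hom₂ {σ K : Type*} [Field K] {m : ℕ}
    (S : Matrix (Fin (m + 1)) (Fin (m + 1)) (MvPolynomial σ K))
    (r c : Fin (m + 1) → ℕ) (h : ∀ k i, (S k i).IsHomogeneous (r k + c i)) (i j : Fin (m + 1))
    (e : ℕ) (he : e + (r j + c i) = ∑ i, r i + ∑ i, c i) : (S.adjugate i j).IsHomogeneous e := by
  rw [Matrix.adjugate_fin_succ_eq_det_submatrix]
  have h1 : (S.submatrix j.succAbove i.succAbove).det.IsHomogeneous
      (∑ k, r (j.succAbove k) + ∑ k, c (i.succAbove k)) := det_hom₂ _ _ _ fun k l => h _ _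
  have h2 : ∑ k, r (j.succAbove k) + ∑ k, c (i.succAbove k) = e := by
    rw [Fin.sum_univ_succAbove c i, Fin.sum_univ_succAbove r j] at he
    omega
  rw [h2] at h1
  rcases neg_one_pow_eq_or (MvPolynomial σ K) ((j : ℕ) + (i : ℕ)) with h3 | h3 <;> rw [h3]
  · simpa using h1
  · simpa using h1.neg

/-- a homogeneous polynomial of degree less than `d` divisible by a form of degree `d` is zero -/
lemma eq_zero_of_dvd_of_lt {f p : P3} {d e : ℕ} (hf : f.IsHomogeneous d) (hp : p.IsHomogeneous e)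
    (h : f ∣ p) (hlt : e < d) : p = 0 := by
  by_contra h0
  obtain ⟨q, hq⟩ := h
  obtain ⟨n, hn, _⟩ := degree_le_of_mul hf (hq ▸ hp) (hq ▸ h0)
  omega

/-- a form divisible by a form of the same degree is a constant multiple -/
lemma exists_C_of_dvd {f p : P3} {d : ℕ} (hf : f.IsHomogeneous d) (hf0 : f ≠ 0)
    (hp : p.IsHomogeneous d) (h : f ∣ p) : ∃ c : ℂ, p = C c * f := by
  obtain ⟨q, hq⟩ := h
  have h1 : q.IsHomogeneous 0 := by
    refine hom_quot (m := d) (n := 0) hf hf0 ?_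
    rw [← hq]
    exact hp
  by_cases hq0 : q = 0
  · exact ⟨0, by rw [hq, hq0, mul_zero, C_0, zero_mul]⟩
  · have h2 := (totalDegree_eq_zero_iff_eq_C).1 (h1.totalDegree hq0)
    exact ⟨q.coeff 0, by rw [hq, h2, mul_comm]; simp⟩

/-- degree weights of the quadric surface fibration, special index `0` -/
def w0 : Fin 4 → ℕ := ![1, 0, 0, 0]

/-- **The theta characteristic of the fibration has only one section.** -/
theorem phi_lemma {M : Matrix (Fin 4) (Fin 4) P3} (hsym : M.IsSymm)
    (hdeg : ∀ i j, (M i j).IsHomogeneous (1 + w0 i + w0 j)) (hs : SmoothP M.det)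
    (hp : Prime M.det) (hδ0 : M.adjugate 0 0 ≠ 0) {φ : P3} (hφ : φ.IsHomogeneous 3)
    (h : φ ^ 2 ∈ Ideal.span {M.adjugate 0 0, M.det}) :
    ∃ lam : ℂ, φ = C lam * M.adjugate 0 0 := by
  have hsr : ∑ i, (1 + w0 i) = 5 := by decide
  have hsc : ∑ i, w0 i = 1 := by decide
  have hdet : M.det.IsHomogeneous 6 := by
    have h1 := det_hom₂ M (fun i => 1 + w0 i) w0 hdeg
    rwa [hsr, hsc] at h1
  have hadj : ∀ i j e, e + (1 + w0 i + w0 j) = 6 → (M.adjugate i j).IsHomogeneous e := by
    intro i j e he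
    refine adj_hom₂ M (fun i => 1 + w0 i) w0 hdeg i j e ?_
    rw [hsr, hsc]
    omega
  have hδ : (M.adjugate 0 0).IsHomogeneous 3 := hadj 0 0 3 (by decide)
  have hfδ : ¬ M.det ∣ M.adjugate 0 0 := fun h1 =>
    hδ0 (eq_zero_of_dvd_of_lt hdet hδ h1 (by norm_num))
  have hadjs : ∀ i j, M.adjugate i j = M.adjugate j i := by
    intro i j
    have h1 := Matrix.adjugate_transpose M
    rw [hsym.eq] at h1
    exact (congrFun (congrFun h1 j) i)
  obtain ⟨p, q, hpq⟩ := Ideal.mem_span_pair.1 h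
  -- the lift
  have hψ : ∀ j : Fin 3, ∃ ψ : P3, ψ.IsHomogeneous 4 ∧
      M.det ∣ φ * M.adjugate 0 j.succ - M.adjugate 0 0 * ψ := by
    intro j
    have hw : w0 j.succ = 0 := by
      fin_cases j <;> rfl
    have h1 : (M.adjugate 0 j.succ).IsHomogeneous 4 := by
      refine hadj _ _ 4 ?_
      rw [hw]
      decide
    refine hom_sqrt_dvd hdet (by norm_num) hp hs (t := 3) (n := 4) (hφ.mul h1) hδ hfδ ?_
    obtain ⟨c, hc⟩ := dvd_minor_adjugate M hp dvd_rfl hfδ j.succ j.succ
    rw [hadjs j.succ 0] at hc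
    refine Ideal.mem_span_pair.2 ⟨p * M.adjugate j.succ j.succ,
      q * M.adjugate 0 j.succ ^ 2 - p * M.adjugate 0 0 * c, ?_⟩
    linear_combination (M.adjugate 0 j.succ ^ 2) * hpq + (p * M.adjugate 0 0) * hc
  choose ψ hψ4 hψd using hψ
  set Ψ : Fin 4 → P3 := Fin.cons φ ψ with hΨ
  have hΨd : ∀ j, M.det ∣ φ * M.adjugate 0 j - M.adjugate 0 0 * Ψ j := by
    intro j
    refine Fin.cases ?_ (fun j => ?_) j
    · rw [hΨ, Fin.cons_zero]
      refine ⟨0, by ring⟩
    · rw [hΨ, Fin.cons_succ]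
      exact hψd j
  have hΨh : ∀ j, (Ψ j).IsHomogeneous (4 - w0 j) := by
    intro j
    refine Fin.cases ?_ (fun j => ?_) j
    · exact hφ
    · have hw : w0 j.succ = 0 := by
        fin_cases j <;> rfl
      rw [hw]
      exact hψ4 j
  have hrow : ∀ k, (Ψ ᵥ* M) k = ∑ j, Ψ j * M j k := fun k => rfl
  have hdvd : ∀ k, M.det ∣ (Ψ ᵥ* M) k := by
    intro k
    have h1 : M.det ∣ M.adjugate 0 0 * (Ψ ᵥ* M) k := by
      have h2 : M.adjugate 0 0 * (Ψ ᵥ* M) k = φ * (∑ j, M.adjugate 0 j * M j k) -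
          ∑ j, (φ * M.adjugate 0 j - M.adjugate 0 0 * Ψ j) * M j k := by
        rw [hrow, Finset.mul_sum, Finset.mul_sum, ← Finset.sum_sub_distrib]
        exact Finset.sum_congr rfl fun j _ => by ring
      rw [h2]
      refine dvd_sub ?_ (Finset.dvd_sum fun j _ => (hΨd j).mul_right _)
      have h3 : ∑ j, M.adjugate 0 j * M j k = M.det * (1 : Matrix (Fin 4) (Fin 4) P3) 0 k := by
        have := congrFun (congrFun (Matrix.adjugate_mul M) 0) k
        rw [Matrix.mul_apply] at this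
        exact this
      rw [h3]
      exact (Dvd.intro _ rfl).mul_left _
    exact (hp.dvd_or_dvd h1).resolve_left hfδ
  have hhom : ∀ k, ((Ψ ᵥ* M) k).IsHomogeneous (5 + w0 k) := by
    intro k
    rw [hrow]
    refine IsHomogeneous.sum _ _ _ fun j _ => ?_
    have h1 := (hΨh j).mul (hdeg j k)
    have hw : w0 j ≤ 1 := by
      fin_cases j <;> decide
    have e : 4 - w0 j + (1 + w0 j + w0 k) = 5 + w0 k := by omega
    rwa [e] at h1
  have hzero : ∀ k : Fin 3, (Ψ ᵥ* M) k.succ = 0 := by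
    intro k
    have hw : w0 k.succ = 0 := by
      fin_cases k <;> rfl
    refine eq_zero_of_dvd_of_lt hdet (hhom k.succ) (hdvd _) ?_
    rw [hw]
    norm_num
  obtain ⟨c, hc⟩ := exists_C_of_dvd hdet hp.ne_zero (hhom 0) (hdvd 0)
  have hall : (Ψ - fun j => C c * M.adjugate 0 j) ᵥ* M = 0 := by
    funext k
    have h3 : ∑ j, M.adjugate 0 j * M j k = M.det * (1 : Matrix (Fin 4) (Fin 4) P3) 0 k := by
      have := congrFun (congrFun (Matrix.adjugate_mul M) 0) k
      rw [Matrix.mul_apply] at this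
      exact this
    have h4 : ((Ψ - fun j => C c * M.adjugate 0 j) ᵥ* M) k =
        (Ψ ᵥ* M) k - C c * ∑ j, M.adjugate 0 j * M j k := by
      rw [hrow, Finset.mul_sum, ← Finset.sum_sub_distrib]
      simp only [Matrix.vecMul, dotProduct, Pi.sub_apply]
      exact Finset.sum_congr rfl fun j _ => by ring
    rw [h4, h3]
    refine Fin.cases ?_ (fun k => ?_) k
    · rw [hc, Matrix.one_apply_eq, mul_one, sub_self]
      rfl
    · rw [hzero, Matrix.one_apply_ne (Fin.succ_ne_zero k).symm, mul_zero, mul_zero, sub_zero]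
      rfl
  have hfin := Matrix.eq_zero_of_vecMul_eq_zero hp.ne_zero hall
  refine ⟨c, ?_⟩
  have h5 := congrFun hfin 0
  simp only [Pi.sub_apply, Pi.zero_apply, sub_eq_zero] at h5
  rw [← h5, hΨ, Fin.cons_zero]

/-- The same with special index `3`. -/
theorem phi_lemma₃ {M : Matrix (Fin 4) (Fin 4) P3} (hsym : M.IsSymm)
    (hdeg : ∀ i j, (M i j).IsHomogeneous (1 + wt i + wt j)) (hs : SmoothP M.det)
    (hp : Prime M.det) (hδ0 : M.adjugate 3 3 ≠ 0) {φ : P3} (hφ : φ.IsHomogeneous 3)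
    (h : φ ^ 2 ∈ Ideal.span {M.adjugate 3 3, M.det}) :
    ∃ lam : ℂ, φ = C lam * M.adjugate 3 3 := by
  set e : Fin 4 ≃ Fin 4 := Equiv.swap 0 3 with he
  have hw : ∀ i, wt (e i) = w0 i := by
    rw [he]
    decide
  have hdet : (M.submatrix e e).det = M.det := Matrix.det_submatrix_equiv_self e M
  have hadj : (M.submatrix e e).adjugate 0 0 = M.adjugate 3 3 := by
    rw [Matrix.adjugate_submatrix_equiv_self]
    rfl
  have h1 := phi_lemma (M := M.submatrix e e) (hsym.submatrix e)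
    (fun i j => by
      have h2 := hdeg (e i) (e j)
      rwa [hw, hw] at h2)
    (by rw [hdet]; exact hs) (by rw [hdet]; exact hp) (by rw [hadj]; exact hδ0) hφ
    (by rw [hadj, hdet]; exact h)
  rwa [hadj] at h1

end Vale.Agent.P287.H908
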