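import Vale.Agent.P287.Odd.Spec
import Vale.Agent.P287.H684.TW
import Vale.Agent.P287.H684.Dim
import Vale.Agent.P287.Theta.Dehom
import Vale.Agent.P287.H925.Hom

/-!
From forms in three variables to the affine chart: the dimension of `X_{m-1}`.
-/

namespace Vale.Agent.P287.H908

open Polynomial Matrix Module Vale.Agent.P287 Vale.Agent.P287.Theta Vale.Agent.P287.Odd

section transfer

lemma cr_eq_dh (P : P3) : cr P = dh P := cr_eq P

lemma wd_iff_tw {k : Type} [Field k] {d : ℕ} {P : k[X][X]} : Wd d P ↔ H684.TW d P :=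
  H684.TW_iff.symm

lemma wd_iff_td {d : ℕ} {P : ℂ[X][X]} : Wd d P ↔ TD d P := by
  rw [TD_iff, wd_iff_tw]
  rfl

/-- the dehomogenisation of a form -/
lemma wd_cr {P : P3} {d : ℕ} (hP : P.IsHomogeneous d) : Wd d (cr P) := by
  rw [wd_iff_td, cr_eq_dh]
  exact TD_dh hP

lemma exists_form {d : ℕ} {p : ℂ[X][X]} (hp : Wd d p) : ∃ P : P3, P.IsHomogeneous d ∧ cr P = p := by
  obtain ⟨P, hP, hP'⟩ := Theta.exists_homog (wd_iff_td.1 hp)
  exact ⟨P, hP, by rw [cr_eq_dh, hP']⟩

lemma cr_inj' {P Q : P3} {d : ℕ} (hP : P.IsHomogeneous d) (hQ : Q.IsHomogeneous d)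
    (h : cr P = cr Q) : P = Q := by
  rw [← sub_eq_zero]
  exact cr_inj (hP.sub hQ) (by rw [map_sub, h, sub_self])

/-- cancellation of a monic factor for the total degree -/
lemma wd_of_mul {n e : ℕ} {g b : ℂ[X][X]} (hg : g.Monic) (hgn : g.natDegree = n) (hgw : Wd n g)
    (h : Wd (n + e) (g * b)) : Wd e b := by
  rw [wd_iff_td] at *
  refine TD_of_mul hgw ?_ h
  intro h0
  have h1 : ((Th g).coeff n).coeff n = 0 := by
    change (top n g).coeff n = 0
    rw [h0, coeff_zero]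
  rw [coeff_Th, if_pos le_rfl, Nat.sub_self] at h1
  have h2 : g.coeff n = 1 := by
    rw [← hgn]
    exact hg
  rw [h2] at h1
  simp at h1

lemma cr_mem {f g P : P3} (h : P ∈ Ideal.span {f, g}) : cr P ∈ Ideal.span {cr f, cr g} := by
  obtain ⟨a, b, rfl⟩ := Ideal.mem_span_pair.1 h
  exact Ideal.mem_span_pair.2 ⟨cr a, cr b, by rw [map_add, map_mul, map_mul]⟩

/-- the ideal `(f, g)` is saturated with respect to the line at infinity -/
lemma mem_of_cr_mem {m : ℕ} {f g : P3} (hC : Curve m (cr g) (cr f)) (hf : f.IsHomogeneous 6)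
    (hg : g.IsHomogeneous (2 * m + 1)) {P : P3} {e : ℕ} (hP : P.IsHomogeneous e) (he : 6 ≤ e)
    (hen : 2 * m + 1 ≤ e) (h : cr P ∈ Ideal.span {cr f, cr g}) : P ∈ Ideal.span {f, g} := by
  obtain ⟨a₀, b₀, hab⟩ := Ideal.mem_span_pair.1 h
  set a := a₀ %ₘ cr g with ha
  set b := b₀ + (a₀ /ₘ cr g) * cr f with hb
  have hab' : cr f * a + cr g * b = cr P := by
    have h1 := modByMonic_add_div a₀ (cr g)
    rw [← hab, ha, hb]
    linear_combination (cr f) * h1
  have hdeg : ∀ j, 2 * m + 1 ≤ j → a.coeff j = 0 := by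
    intro j hj
    refine coeff_eq_zero_of_degree_lt (lt_of_lt_of_le (degree_modByMonic_lt _ hC.monic) ?_)
    rw [degree_eq_natDegree hC.monic.ne_zero, hC.deg]
    exact_mod_cast hj
  have hmod : (cr f * a) %ₘ cr g = cr P %ₘ cr g := by
    have h1 : cr f * a = cr P - cr g * b := by linear_combination hab'
    rw [h1, sub_modByMonic, (modByMonic_eq_zero_iff_dvd hC.monic).mpr (dvd_mul_right _ _),
      sub_zero]
  have hWP : Wd e (cr P) := wd_cr hP
  have hWa : Wd (e - 6) a := by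
    refine hC.inf.2 (e - 6) a hdeg ?_
    rw [hmod, Nat.sub_add_cancel he, wd_iff_tw]
    exact H684.TW.modByMonic hC.monic hC.deg (wd_iff_tw.1 hC.wd) (wd_iff_tw.1 hWP)
  have hWb : Wd (e - (2 * m + 1)) b := by
    refine wd_of_mul hC.monic hC.deg hC.wd ?_
    have h1 : cr g * b = cr P - cr f * a := by linear_combination hab'
    rw [h1, Nat.add_sub_of_le hen, wd_iff_tw]
    refine (wd_iff_tw.1 hWP).sub ?_
    have h2 := (wd_iff_tw.1 hC.inf.1).mul (wd_iff_tw.1 hWa)
    rwa [Nat.add_sub_of_le he] at h2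
  obtain ⟨A, hA, hA'⟩ := exists_form hWa
  obtain ⟨B, hB, hB'⟩ := exists_form hWb
  have h1 : (f * A + g * B).IsHomogeneous e := by
    have h2 := hf.mul hA
    have h3 := hg.mul hB
    rw [Nat.add_sub_of_le he] at h2
    rw [Nat.add_sub_of_le hen] at h3
    exact h2.add h3
  have h2 : P = f * A + g * B := by
    refine cr_inj' hP h1 ?_
    rw [map_add, map_mul, map_mul, hA', hB', hab']
  rw [h2]
  exact Ideal.mem_span_pair.2 ⟨A, B, by ring⟩

end transfer

section minors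

variable {R : Type*} [CommRing R]

/-- the matrix of the cross product with `a` -/
def crossM (a : Fin 3 → R) : Matrix (Fin 3) (Fin 3) R :=
  !![0, -a 2, a 1; a 2, 0, -a 0; -a 1, a 0, 0]

/-- The adjugate of a symmetric `3 × 3` matrix has rank one modulo the determinant. -/
lemma key_minor {A : Matrix (Fin 3) (Fin 3) R} (hA : A.IsSymm) (a : Fin 3 → R) (i j : Fin 3) :
    (A.adjugate *ᵥ a) i * (A.adjugate *ᵥ a) j - A.adjugate i j * (a ⬝ᵥ (A.adjugate *ᵥ a)) =
      -(A.det * (crossM a * A * (crossM a).transpose) i j) := by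
  have h1 : A 1 0 = A 0 1 := hA.apply 0 1
  have h2 : A 2 0 = A 0 2 := hA.apply 0 2
  have h3 : A 2 1 = A 1 2 := hA.apply 1 2
  fin_cases i <;> fin_cases j <;>
    simp [crossM, Matrix.adjugate_fin_three, Matrix.det_fin_three, mulVec, vecMul, dotProduct,
      Fin.sum_univ_three, Matrix.mul_apply, h1, h2, h3] <;> ring

/-- `adj(A) a ∈ J³` if and only if `a · adj(A) a ∈ (f, g)`. -/
lemma adj_mem_iff {A : Matrix (Fin 3) (Fin 3) R} (hA : A.IsSymm) {f g : R} (hdet : A.det = -f)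
    {J : Ideal R} (hsq : ∀ c, c ^ 2 ∈ Ideal.span {f, g} → c ∈ J)
    (hmul : ∀ a ∈ J, ∀ b ∈ J, a * b ∈ Ideal.span {f, g})
    (hrank : Ideal.span (Set.range fun ij : Fin 3 × Fin 3 => A.adjugate ij.1 ij.2) ⊔
      Ideal.span {f, g} = ⊤) (a : Fin 3 → R) :
    (∀ i, (A.adjugate *ᵥ a) i ∈ J) ↔ a ⬝ᵥ (A.adjugate *ᵥ a) ∈ Ideal.span {f, g} := by
  set Q := a ⬝ᵥ (A.adjugate *ᵥ a) with hQ
  have hfI : ∀ r, A.det * r ∈ Ideal.span {f, g} := by
    intro r
    rw [hdet]
    exact Ideal.mem_span_pair.2 ⟨-r, 0, by ring⟩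
  constructor
  · intro h
    set K : Ideal R := Submodule.comap (LinearMap.mulRight R Q) (Ideal.span {f, g}) with hK
    have hmem : ∀ r, r ∈ K ↔ r * Q ∈ Ideal.span {f, g} := fun r => Iff.rfl
    have h1 : (⊤ : Ideal R) ≤ K := by
      rw [← hrank]
      refine sup_le (Ideal.span_le.2 ?_) ?_
      · rintro _ ⟨ij, rfl⟩
        rw [SetLike.mem_coe, hmem]
        have e : A.adjugate ij.1 ij.2 * Q = (A.adjugate *ᵥ a) ij.1 * (A.adjugate *ᵥ a) ij.2 +
            A.det * (crossM a * A * (crossM a).transpose) ij.1 ij.2 := by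
          linear_combination -(key_minor hA a ij.1 ij.2)
        change A.adjugate ij.1 ij.2 * Q ∈ _
        rw [e]
        exact add_mem (hmul _ (h _) _ (h _)) (hfI _)
      · intro r hr
        rw [hmem]
        exact Ideal.mul_mem_right _ _ hr
    have h2 : (1 : R) ∈ K := h1 trivial
    rwa [hmem, one_mul] at h2
  · intro h i
    apply hsq
    have e : (A.adjugate *ᵥ a) i ^ 2 = A.adjugate i i * Q +
        -(A.det * (crossM a * A * (crossM a).transpose) i i) := by
      linear_combination (key_minor hA a i i)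
    rw [e]
    exact add_mem (Ideal.mul_mem_left _ _ h) (neg_mem (hfI _))

end minors

section main

variable {m : ℕ} {f g : P3} {A : Matrix (Fin 3) (Fin 3) P3}

lemma mem_En {n d : ℕ} (h : d < n) {P : ℂ[X][X]} : P ∈ En n d ↔ Wd d P := by
  constructor
  · exact fun hP => hP.1
  · intro hP
    refine ⟨hP, fun j hj => ?_⟩
    ext i
    rw [coeff_zero]
    exact hP i j (by omega)

/-- **[D1t]** the reduced vectors of degree at most `m - 1` of `X` are the pairs of forms `(c, a)`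
with `c ^ 2 ∈ (g, f)` and `a · adj(A) a ∈ (g, f)`. -/
theorem finrank_Yd (hm : 2 ≤ m) (hf : f.IsHomogeneous 6) (hg : g.IsHomogeneous (2 * m + 1))
    (hA2 : ∀ i j, (A i j).IsHomogeneous 2) (hC : Curve m (cr g) (cr f))
    (hQ : Quadrics (cr g) (cr f) (A.map cr)) {J : Ideal ℂ[X][X]} (hJ : Half m (cr g) (cr f) J)
    (hJ' : ∀ c, c ^ 2 ∈ Ideal.span {cr f, cr g} → c ∈ J) (S₁ : Submodule ℂ P3)
    (hS₁ : ∀ c, c ∈ S₁ ↔ c.IsHomogeneous (m + 2) ∧ c ^ 2 ∈ Ideal.span {g, f})
    (S₂ : Submodule ℂ (Fin 3 → P3))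
    (hS₂ : ∀ a, a ∈ S₂ ↔ (∀ i, (a i).IsHomogeneous m) ∧
      a ⬝ᵥ (A.adjugate *ᵥ a) ∈ Ideal.span {g, f}) :
    finrank ℂ (Yd (2 * m + 1) (m - 1) (modX (A.map cr) J)) = finrank ℂ S₁ + finrank ℂ S₂ := by
  have hadj : (A.map cr).adjugate = A.adjugate.map cr := (AlgHom.map_adjugate cr A).symm
  have hadj4 : ∀ i j, (A.adjugate i j).IsHomogeneous 4 := fun i j =>
    Vale.Agent.P287.H925.adj_hom A (fun _ => 2) (fun k i => hA2 k i) i j 4 (by decide)
  have hq : ∀ a : Fin 3 → P3, (∀ i, (a i).IsHomogeneous m) →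
      (a ⬝ᵥ (A.adjugate *ᵥ a)).IsHomogeneous (2 * m + 4) := by
    intro a ha
    refine MvPolynomial.IsHomogeneous.sum _ _ _ fun i _ => ?_
    have h1 : ((A.adjugate *ᵥ a) i).IsHomogeneous (4 + m) :=
      MvPolynomial.IsHomogeneous.sum _ _ _ fun j _ => (hadj4 i j).mul (ha j)
    have h2 := (ha i).mul h1
    have e : m + (4 + m) = 2 * m + 4 := by ring
    rwa [e] at h2
  have hcrq : ∀ a : Fin 3 → P3, cr (a ⬝ᵥ (A.adjugate *ᵥ a)) =
      (fun i => cr (a i)) ⬝ᵥ ((A.map cr).adjugate *ᵥ fun i => cr (a i)) := by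
    intro a
    rw [hadj]
    simp only [dotProduct, mulVec, map_sum, map_mul, Matrix.map_apply]
  have hf1 : Module.Finite ℂ S₁ :=
    Submodule.finiteDimensional_of_le (S₂ := MvPolynomial.homogeneousSubmodule (Fin 3) ℂ (m + 2))
      fun c hc => ((hS₁ c).1 hc).1
  have hf2 : Module.Finite ℂ S₂ := by
    let F : S₂ →ₗ[ℂ] (Fin 3 → MvPolynomial.homogeneousSubmodule (Fin 3) ℂ m) :=
      { toFun := fun a i => ⟨(a : Fin 3 → P3) i, ((hS₂ a).1 a.2).1 i⟩
        map_add' := fun a b => rfl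
        map_smul' := fun c a => rfl }
    refine Module.Finite.of_injective F fun a b hab => Subtype.ext (funext fun i => ?_)
    exact congrArg Subtype.val (congrFun hab i)
  let Φ : (S₁ × S₂) →ₗ[ℂ] (Fin 4 → ℂ[X][X]) :=
    { toFun := fun x => Fin.cons (cr (x.1 : P3)) (fun i => cr ((x.2 : Fin 3 → P3) i))
      map_add' := fun x y => by
        funext i
        refine Fin.cases ?_ (fun i => ?_) i
        · simp
        · simp
      map_smul' := fun c x => by
        funext i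
        refine Fin.cases ?_ (fun i => ?_) i
        · simp
        · simp }
  have hΦ0 : ∀ x, Φ x 0 = cr (x.1 : P3) := fun x => rfl
  have hΦs : ∀ x i, Φ x (Fin.succ i) = cr ((x.2 : Fin 3 → P3) i) := fun x i => rfl
  have hinj : Function.Injective Φ := by
    rintro ⟨⟨c, hc⟩, ⟨a, ha⟩⟩ ⟨⟨c', hc'⟩, ⟨a', ha'⟩⟩ h
    have h1 : c = c' := cr_inj' ((hS₁ c).1 hc).1 ((hS₁ c').1 hc').1 (congrFun h 0)
    have h2 : a = a' := by
      funext i
      exact cr_inj' (((hS₂ a).1 ha).1 i) (((hS₂ a').1 ha').1 i) (congrFun h i.succ)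
    subst h1
    subst h2
    rfl
  have hpair : Ideal.span {g, f} = Ideal.span {f, g} := by rw [Set.pair_comm]
  have hd0 : m - 1 + wt4 0 = m + 2 := by
    have : wt4 0 = 3 := rfl
    omega
  have hds : ∀ i : Fin 3, m - 1 + wt4 i.succ = m := by
    intro i
    have : wt4 i.succ = 1 := by fin_cases i <;> rfl
    omega
  have hrange : LinearMap.range Φ = Yd (2 * m + 1) (m - 1) (modX (A.map cr) J) := by
    ext v
    have hY : v ∈ Yd (2 * m + 1) (m - 1) (modX (A.map cr) J) ↔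
        (v 0 ∈ J ∧ ∀ i, ((A.map cr).adjugate *ᵥ av v) i ∈ J) ∧
          Wd (m + 2) (v 0) ∧ ∀ i : Fin 3, Wd m (v i.succ) := by
      rw [Yd, Submodule.mem_inf]
      refine and_congr Iff.rfl ?_
      rw [Submodule.mem_pi]
      constructor
      · intro h
        refine ⟨?_, fun i => ?_⟩
        · have h1 := h 0 (Set.mem_univ _)
          rw [hd0] at h1
          exact (mem_En (by omega)).1 h1
        · have h1 := h i.succ (Set.mem_univ _)
          rw [hds] at h1
          exact (mem_En (by omega)).1 h1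
      · rintro ⟨h1, h2⟩ i -
        refine Fin.cases ?_ (fun i => ?_) i
        · rw [hd0]
          exact (mem_En (by omega)).2 h1
        · rw [hds]
          exact (mem_En (by omega)).2 (h2 i)
    rw [hY, adj_mem_iff hQ.symm hQ.det hJ' hJ.mul_mem hQ.rank]
    constructor
    · rintro ⟨⟨⟨c, hc⟩, ⟨a, ha⟩⟩, rfl⟩
      obtain ⟨hc1, hc2⟩ := (hS₁ c).1 hc
      obtain ⟨ha1, ha2⟩ := (hS₂ a).1 ha
      rw [hpair] at hc2 ha2
      refine ⟨⟨hJ' _ ?_, ?_⟩, ?_, fun i => ?_⟩
      · rw [hΦ0, ← map_pow]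
        exact cr_mem hc2
      · have h1 := cr_mem ha2
        rw [hcrq] at h1
        exact h1
      · rw [hΦ0]
        exact wd_cr hc1
      · rw [hΦs]
        exact wd_cr (ha1 i)
    · rintro ⟨⟨h1, h2⟩, h3, h4⟩
      obtain ⟨c, hc, hc'⟩ := exists_form h3
      choose a ha ha' using fun i => exists_form (h4 i)
      have hcJ : c ∈ S₁ := by
        rw [hS₁, hpair]
        refine ⟨hc, mem_of_cr_mem hC hf hg (hc.pow 2) (by omega) (by omega) ?_⟩
        rw [map_pow, hc', pow_two]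
        exact hJ.mul_mem _ h1 _ h1
      have haJ : a ∈ S₂ := by
        rw [hS₂, hpair]
        refine ⟨ha, mem_of_cr_mem hC hf hg (hq a ha) (by omega) (by omega) ?_⟩
        have e : (fun i => cr (a i)) = av v := funext fun i => ha' i
        rw [hcrq, e]
        exact h2
      refine ⟨⟨⟨c, hcJ⟩, ⟨a, haJ⟩⟩, ?_⟩
      funext i
      refine Fin.cases ?_ (fun i => ?_) i
      · rw [hΦ0]
        exact hc'
      · rw [hΦs]
        exact ha' i
  rw [← hrange, LinearMap.finrank_range_of_inj hinj, Module.finrank_prod]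

end main

end Vale.Agent.P287.H908
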