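import Vale.Agent.P287.Odd.Spec

/-!
The Lagrangian given by an isotropic vector.
-/

namespace Vale.Agent.P287.H908

open Matrix Module Vale.Agent.P287.Odd

section

variable {Q : Type} [CommRing Q]

lemma dot3 (u v : Fin 3 → Q) : u ⬝ᵥ v = u 0 * v 0 + u 1 * v 1 + u 2 * v 2 := by
  rw [dotProduct, Fin.sum_univ_three]

lemma mul3 (A : Matrix (Fin 3) (Fin 3) Q) (u : Fin 3 → Q) (i : Fin 3) :
    (A *ᵥ u) i = A i 0 * u 0 + A i 1 * u 1 + A i 2 * u 2 := by
  rw [mulVec, dot3]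

/-- The basic identity for the adjugate of a symmetric matrix. -/
lemma adj_cross {A : Matrix (Fin 3) (Fin 3) Q} (hA : A.IsSymm) (y u v : Fin 3 → Q) :
    (u ⬝ᵥ (A *ᵥ y)) * (v ⬝ᵥ (A *ᵥ y)) = (u ⬝ᵥ (A *ᵥ v)) * (y ⬝ᵥ (A *ᵥ y)) -
      (crossProduct y u) ⬝ᵥ (A.adjugate *ᵥ (crossProduct y v)) := by
  have h1 : A 1 0 = A 0 1 := hA.apply 0 1
  have h2 : A 2 0 = A 0 2 := hA.apply 0 2
  have h3 : A 2 1 = A 1 2 := hA.apply 1 2
  simp only [dot3, mul3, cross_apply, Matrix.adjugate_fin_three, h1, h2, h3, Matrix.of_apply,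
    Matrix.cons_val_zero, Matrix.cons_val_one, Matrix.cons_val]
  ring

lemma triple (z a l : Fin 3 → Q) : z ⬝ᵥ crossProduct a l = crossProduct z a ⬝ᵥ l := by
  simp only [dot3, cross_apply, Matrix.cons_val_zero, Matrix.cons_val_one,
    Matrix.cons_val]
  ring

lemma cross_cross' (ν z a : Fin 3 → Q) :
    crossProduct ν (crossProduct z a) = (ν ⬝ᵥ a) • z - (ν ⬝ᵥ z) • a := by
  funext i
  fin_cases i <;>
    simp only [dot3, cross_apply, Matrix.cons_val_zero, Matrix.cons_val_one,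
      Matrix.cons_val, Fin.zero_eta, Fin.mk_one, Fin.reduceFinMk, Pi.sub_apply, Pi.smul_apply,
      smul_eq_mul] <;> ring

/-- The module of the isotropic vector is isotropic. -/
theorem iso_L2 {A : Matrix (Fin 3) (Fin 3) Q} (hA : A.IsSymm) {ν z : Fin 3 → Q}
    (hz : z ⬝ᵥ ν = 1) (hiso : ν ⬝ᵥ (A *ᵥ ν) = 0) {v w : Fin 4 → Q}
    (hv : av v ⬝ᵥ ν = 0 ∧ crossProduct (av v) (A *ᵥ ν) = v 0 • ν)
    (hw : av w ⬝ᵥ ν = 0 ∧ crossProduct (av w) (A *ᵥ ν) = w 0 • ν) :
    v 0 * w 0 + av v ⬝ᵥ (A.adjugate *ᵥ av w) = 0 := by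
  have key : ∀ {v : Fin 4 → Q}, (av v ⬝ᵥ ν = 0 ∧ crossProduct (av v) (A *ᵥ ν) = v 0 • ν) →
      v 0 = crossProduct z (av v) ⬝ᵥ (A *ᵥ ν) ∧
        crossProduct ν (crossProduct z (av v)) = -av v := by
    intro v hv
    constructor
    · rw [← triple, hv.2, dotProduct_smul, hz, smul_eq_mul, mul_one]
    · rw [cross_cross', dotProduct_comm ν, hv.1, zero_smul, dotProduct_comm ν, hz, one_smul,
        zero_sub]
  obtain ⟨h1, h2⟩ := key hv
  obtain ⟨h3, h4⟩ := key hw
  have h5 := adj_cross hA ν (crossProduct z (av v)) (crossProduct z (av w))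
  rw [← h1, ← h3, h2, h4, hiso, mul_zero, zero_sub, neg_dotProduct, mulVec_neg, dotProduct_neg,
    neg_neg] at h5
  rw [h5]
  ring

/-- The component `c` is determined by `a`, and every `a` orthogonal to `ν` occurs. -/
lemma cross_of_orth {ν z l a : Fin 3 → Q} (hz : z ⬝ᵥ ν = 1) (hl : l ⬝ᵥ ν = 0)
    (ha : a ⬝ᵥ ν = 0) : crossProduct a l = (z ⬝ᵥ crossProduct a l) • ν := by
  have h1 : crossProduct ν (crossProduct a l) = 0 := by
    rw [cross_cross', dotProduct_comm ν, hl, dotProduct_comm ν, ha, zero_smul, zero_smul,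
      sub_zero]
  have h2 := cross_cross' z ν (crossProduct a l)
  rw [h1, map_zero, hz, one_smul] at h2
  exact (sub_eq_zero.1 h2.symm).symm

variable {k : Type} [Field k] [Algebra k Q]

/-- The dimension of the module of the isotropic vector. -/
theorem finrank_L2 [Module.Finite k Q] {ν z l : Fin 3 → Q} (hz : z ⬝ᵥ ν = 1)
    (hl : l ⬝ᵥ ν = 0) (L : Submodule k (Fin 4 → Q))
    (hL : ∀ v, v ∈ L ↔ av v ⬝ᵥ ν = 0 ∧ crossProduct (av v) l = v 0 • ν) :
    finrank k L = 2 * finrank k Q := by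
  let φ : (Fin 3 → Q) →ₗ[k] Q :=
    { toFun := fun a => a ⬝ᵥ ν
      map_add' := fun a b => add_dotProduct a b ν
      map_smul' := fun c a => by
        simp only [RingHom.id_apply, smul_dotProduct] }
  have hφ : ∀ a, φ a = a ⬝ᵥ ν := fun a => rfl
  have hsurj : Function.Surjective φ := by
    intro q
    refine ⟨q • z, ?_⟩
    rw [hφ, smul_dotProduct, hz, smul_eq_mul, mul_one]
  let p : L →ₗ[k] LinearMap.ker φ :=
    { toFun := fun v => ⟨av (v : Fin 4 → Q), ((hL v).1 v.2).1⟩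
      map_add' := fun a b => rfl
      map_smul' := fun c a => rfl }
  have hp : Function.Bijective p := by
    constructor
    · rintro ⟨v, hv⟩ ⟨w, hw⟩ h
      have h1 : av v = av w := congrArg Subtype.val h
      have h2 : v 0 = w 0 := by
        have e1 := congrArg (fun x => z ⬝ᵥ x) ((hL v).1 hv).2
        have e2 := congrArg (fun x => z ⬝ᵥ x) ((hL w).1 hw).2
        simp only [dotProduct_smul, hz, smul_eq_mul, mul_one] at e1 e2
        rw [← e1, ← e2, h1]
      refine Subtype.ext (funext fun i => ?_)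
      refine Fin.cases h2 (fun i => ?_) i
      exact congrFun h1 i
    · rintro ⟨a, ha⟩
      have ha' : a ⬝ᵥ ν = 0 := ha
      refine ⟨⟨Fin.cons (z ⬝ᵥ crossProduct a l) a, ?_⟩, rfl⟩
      rw [hL]
      exact ⟨ha', cross_of_orth hz hl ha'⟩
  have h1 := (LinearEquiv.ofBijective p hp).finrank_eq
  have h2 := φ.finrank_range_add_finrank_ker
  rw [LinearMap.range_eq_top.2 hsurj, finrank_top, Module.finrank_pi_fintype] at h2
  simp only [Finset.sum_const, Finset.card_univ, Fintype.card_fin, smul_eq_mul] at h2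
  omega

end

end Vale.Agent.P287.H908
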